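import Mathlib
import Vale.Agent.P032.OpenTop

/-! Proof-level definitions for Cannon's conjecture. -/

namespace Vale.Agent.P198

open Set Filter Topology Metric MeasureTheory
open scoped Classical

noncomputable section

/-- Gromov product at the identity -/
def gpr {G : Type*} [Group G] (len : G → ℕ) (a b : G) : ℝ :=
  ((len a : ℝ) + len b - len (a⁻¹ * b)) / 2

/-- Gromov product of a horofunction and a vertex -/
def ppr {G : Type*} (len : G → ℕ) (hf : G → ℝ) (u : G) : ℝ := ((len u : ℝ) - hf u) / 2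

/-- Boundary data of a hyperbolic group whose boundary `X` is a sphere. -/
structure BD (G : Type*) [Group G] (X : Type) [MetricSpace X] [MulAction G X] where
  len : G → ℕ
  δ : ℕ
  D : ℕ
  ball : ℕ → Finset G
  h : X → G → ℝ
  ray : X → ℕ → G
  one_le_δ : 1 ≤ δ
  two_le_D : 2 ≤ D
  len_one : len 1 = 0
  len_inv : ∀ a, len a⁻¹ = len a
  len_mul : ∀ a b, len (a * b) ≤ len a + len b
  mem_ball : ∀ r a, a ∈ ball r ↔ len a ≤ r
  card_ball : ∀ r, (ball r).card ≤ D ^ r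
  four : ∀ a b c, min (gpr len a b) (gpr len b c) - δ ≤ gpr len a c
  h_one : ∀ ξ, h ξ 1 = 0
  h_lip : ∀ ξ a b, h ξ a - h ξ b ≤ len (a⁻¹ * b)
  H1 : ∀ ξ a b, min (ppr len (h ξ) a) (ppr len (h ξ) b) - δ ≤ gpr len a b
  H2 : ∀ ξ a b, min (ppr len (h ξ) a) (gpr len a b) - δ ≤ ppr len (h ξ) b
  H4 : ∀ (g : G) ξ a b, |h (g • ξ) (g * a) - h (g • ξ) (g * b) - (h ξ a - h ξ b)| ≤ δ
  ray_len : ∀ ξ n, len (ray ξ n) = n
  ray_h : ∀ ξ n, h ξ (ray ξ n) = -n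
  T1 : ∀ ε : ℝ, 0 < ε → ∃ R : ℝ, ∀ ξ η u, R ≤ ppr len (h ξ) u → R ≤ ppr len (h η) u → dist ξ η < ε
  T2 : ∀ R : ℝ, ∃ ε : ℝ, 0 < ε ∧ ∀ ξ η, dist ξ η < ε → ∀ u,
    min (ppr len (h ξ) u) R - δ ≤ ppr len (h η) u
  cont : ∀ g : G, Continuous fun ξ : X => g • ξ
  sph : ∀ ω : X, ∃ e : ℝ × ℝ → X, IsOpenEmbedding e ∧ range e = {ω}ᶜ
  cpt : IsCompact (univ : Set X)

section
variable {G : Type*} [Group G] {X : Type} [MetricSpace X] [MulAction G X]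

namespace BD
variable (B : BD G X)

/-- word distance -/
def d (a b : G) : ℝ := B.len (a⁻¹ * b)
/-- Gromov product of vertices -/
def gp (a b : G) : ℝ := gpr B.len a b
/-- Gromov product of a boundary point and a vertex -/
def P (ξ : X) (u : G) : ℝ := ppr B.len (B.h ξ) u
/-- two boundary points have Gromov product at least about `R` -/
def Near (R : ℝ) (ξ η : X) : Prop := ∃ u, R ≤ B.P ξ u ∧ R ≤ B.P η u
/-- sphere of radius `n` -/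
def lev (n : ℕ) : Finset G := (B.ball n).filter fun u => B.len u = n
/-- `Γ` looks big from `q` -/
def Mac (R : ℝ) (Γ : Set X) (q : G) : Prop := ∃ ξ ∈ Γ, ∃ η ∈ Γ, ¬ B.Near R (q⁻¹ • ξ) (q⁻¹ • η)
/-- number of viewpoints at distance `j` from `p` from which `Γ` looks big -/
def cnt (R : ℝ) (Γ : Set X) (p : G) (j : ℕ) : ℕ := ((B.lev j).filter fun v => B.Mac R Γ (p * v)).card
/-- level `j` vertices on rays to points of `Γ` close to `ξs` -/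
def act (Γ : Set X) (ξs : X) (R : ℝ) (j : ℕ) : Finset G :=
  (B.lev j).filter fun p => ∃ ξ ∈ Γ, B.Near R ξs ξ ∧ p = B.ray ξ j

end BD

/-- a family of connected open shadows -/
structure Cov (B : BD G X) (A : ℝ) where
  A' : ℕ
  n0 : ℕ
  U : G → Set X
  U_open : ∀ u, IsOpen (U u)
  U_conn : ∀ u, IsPreconnected (U u)
  U_in : ∀ u ξ, n0 ≤ B.len u → B.len u - A ≤ B.P ξ u → ξ ∈ U u
  U_out : ∀ u ξ, n0 ≤ B.len u → ξ ∈ U u → B.len u - (A' : ℝ) ≤ B.P ξ u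

/-- boundary data together with a visibility constant and a cover -/
structure Ctx (G : Type*) [Group G] (X : Type) [MetricSpace X] [MulAction G X] extends BD G X where
  Cv : ℕ
  vis : ∀ u, ∃ ξ, toBD.len u - (Cv : ℝ) ≤ toBD.P ξ u
  cov : Cov toBD (Cv + 2 * toBD.δ)

namespace Ctx
variable (K : Ctx G X)

/-- the shadows -/
def U (u : G) : Set X := K.cov.U u
/-- step size of chains -/
def lam : ℕ := 2 * K.cov.A' + 2 * K.δ
/-- outer radius offset -/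
def a2 : ℕ := K.lam + 3 * K.δ
/-- forward cone offset -/
def a3 : ℕ := 2 * K.lam + 4 * K.δ
/-- gap between nested annuli -/
def gap : ℕ := 2 * K.lam + 3 * K.δ + 1
/-- chains with bounded steps inside `c` -/
def Chain (c : Finset G) (a b : G) : Prop :=
  Relation.ReflTransGen (fun x y => x ∈ c ∧ y ∈ c ∧ K.d x y ≤ K.lam) a b
/-- thick sphere -/
def shell (m : ℕ) : Finset G := (K.ball (m + 2 * K.a3)).filter fun v => m ≤ K.len v
/-- admissible weights at level `m` -/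
def Adm (m : ℕ) (ρ : G → ℝ) : Prop :=
  (∀ v, 0 ≤ ρ v) ∧ ∀ c : Finset G, c ⊆ K.shell m → ∀ a ∈ c, ∀ b ∈ c, K.Chain c a b →
    K.gp a b ≤ K.lam + 2 * K.δ → 1 ≤ ∑ v ∈ c, ρ v
/-- the level `m` modulus is at most `M` -/
def ModLe (m : ℕ) (M : ℝ) : Prop := ∃ ρ, K.Adm m ρ ∧ ∑ v ∈ K.shell m, ρ v ^ 2 ≤ M
/-- overlapping shadows -/
def adj (u v : G) : Prop := (K.U u ∩ K.U v).Nonempty
/-- chains of overlapping shadows inside `c` -/
def AChain (c : Finset G) (a b : G) : Prop :=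
  Relation.ReflTransGen (fun x y => x ∈ c ∧ y ∈ c ∧ K.adj x y) a b
/-- members of `V` whose shadow meets `Γ` -/
def fat (V : Finset G) (Γ : Set X) : Finset G := V.filter fun u => (K.U u ∩ Γ).Nonempty

end Ctx

end

section Extremal
variable {ι : Type*}

/-- left-right chains -/
def IsLR (V : Finset ι) (adj : ι → ι → Prop) (L R : ι → Prop) (c : Finset ι) : Prop :=
  c ⊆ V ∧ ∃ a ∈ c, L a ∧ (∃ b ∈ c, R b) ∧
    ∀ u ∈ c, Relation.ReflTransGen (fun x y => x ∈ c ∧ y ∈ c ∧ adj x y) a u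

/-- sets meeting every left-right chain -/
def Blocking (V : Finset ι) (adj : ι → ι → Prop) (L R : ι → Prop) (S : Finset ι) : Prop :=
  ∀ c, IsLR V adj L R c → ∃ u ∈ c, u ∈ S

/-- the extremal flow, metric and potential -/
structure Ext (V : Finset ι) (adj : ι → ι → Prop) (L R : ι → Prop) where
  fl : Finset ι → ℝ
  M : ℝ
  σ : ι → ℝ
  pot : ι → ℝ
  fl_nonneg : ∀ c, 0 ≤ fl c
  fl_supp : ∀ c, fl c ≠ 0 → IsLR V adj L R c
  M_pos : 0 < M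
  sum_fl : ∑ c ∈ V.powerset, fl c = M
  σ_eq : ∀ u, σ u = ∑ c ∈ V.powerset.filter (fun c => u ∈ c), fl c
  sum_sq : ∑ u ∈ V, σ u ^ 2 = M
  pot_nonneg : ∀ u, 0 ≤ pot u
  pot_le : ∀ u, pot u ≤ 1
  pot_left : ∀ u ∈ V, L u → pot u = 0
  pot_adj : ∀ u ∈ V, ∀ v ∈ V, adj u v → pot v ≤ pot u + σ u
  pot_right : ∀ u ∈ V, R u → 1 ≤ pot u + σ u

namespace Ext
variable {V : Finset ι} {adj : ι → ι → Prop} {L R : ι → Prop} (E : Ext V adj L R)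

/-- level set of the potential -/
def lv (t : ℝ) : Finset ι := V.filter fun u => E.pot u < t ∧ t ≤ E.pot u + E.σ u
/-- levels whose level set has minimal weight -/
def Good (t : ℝ) : Prop := t ∈ Ioc (0 : ℝ) 1 ∧ ∑ u ∈ E.lv t, E.σ u = E.M
/-- weight of the neighbourhood of `u` -/
def hat (u : ι) : ℝ := ∑ v ∈ V.filter (fun v => adj u v), E.σ v

end Ext
end Extremal

/-- the unit square -/
abbrev sq : Set (ℝ × ℝ) := P032.sq
/-- the open strip -/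
def strip : Set (ℝ × ℝ) := Ioo (-1) 2 ×ˢ Ioo 0 1
/-- the covered zone -/
def zone (η : ℝ) : Set (ℝ × ℝ) := Icc (-1 / 2) (3 / 2) ×ˢ Icc η (1 - η)
/-- compact connected sets crossing the square from bottom to top -/
def Cross (γ : Set (ℝ × ℝ)) : Prop :=
  γ ⊆ sq ∧ IsCompact γ ∧ IsPreconnected γ ∧ (∃ a ∈ γ, a.2 = 0) ∧ ∃ b ∈ γ, b.2 = 1

section
variable {G : Type*} [Group G] {X : Type} [MetricSpace X] [MulAction G X]

namespace Ctx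
variable (K : Ctx G X) (e : ℝ × ℝ → X)

/-- level `n` shadows inside the strip -/
def fam (n : ℕ) : Finset G := (K.lev n).filter fun u => K.U u ⊆ e '' strip
/-- shadows reaching to the left of the square -/
def Lf (u : G) : Prop := ∃ z : ℝ × ℝ, z.1 < 0 ∧ e z ∈ K.U u
/-- shadows reaching to the right of the square -/
def Rt (u : G) : Prop := ∃ z : ℝ × ℝ, 1 < z.1 ∧ e z ∈ K.U u
/-- extremal data of the chart `e` at level `n` -/
abbrev Sol (n : ℕ) := Ext (K.fam e n) K.adj (K.Lf e) (K.Rt e)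
/-- `z` lies below the chain `c` -/
def Below (c : Finset G) (z : ℝ × ℝ) : Prop :=
  ∃ β : Set (ℝ × ℝ), β ⊆ sq ∧ (∀ w ∈ β, ∀ u ∈ c, e w ∉ K.U u) ∧ IsPreconnected β ∧ z ∈ β ∧
    ∃ w ∈ β, w.2 = 0

variable {K e} {n : ℕ} (E : K.Sol e n)

/-- height function -/
def Hf (z : ℝ × ℝ) : ℝ := ∑ c ∈ (K.fam e n).powerset.filter (fun c => ¬ K.Below e c z), E.fl c
/-- potential as a function of points -/
def Df (z : ℝ × ℝ) : ℝ :=
  if h : ∃ u ∈ K.fam e n, e z ∈ K.U u then E.pot h.choose else 0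
/-- approximate chart -/
def phi (z : ℝ × ℝ) : ℝ × ℝ := (Df E z, Hf E z)
/-- all local oscillations are at most `ω` -/
def Small (ω : ℝ) : Prop :=
  (∀ u ∈ K.fam e n, E.hat u ≤ ω) ∧
    ∀ z ∈ sq, ∃ r : ℝ, 0 < r ∧ ∀ w ∈ sq, dist z w < r → |Hf E z - Hf E w| ≤ ω

end Ctx

/-- the limit chart with its capacity estimate -/
structure PreChart (K : Ctx G X) where
  φ : X → ℝ × ℝ
  ι : ℝ × ℝ → X
  w0 : ℝ × ℝ
  ρ : ℝ
  C : ℝ
  r0 : ℝ
  ρ_pos : 0 < ρ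
  r0_pos : 0 < r0
  ι_cont : ContinuousOn ι (closedBall w0 ρ)
  linv : ∀ w ∈ closedBall w0 ρ, φ (ι w) = w
  isOpen : IsOpen (ι '' ball w0 ρ)
  φ_cont : ContinuousOn φ (ι '' closedBall w0 ρ)
  lap : ∀ k : ℕ, 1 ≤ k → ∀ r : ℝ, 0 < r → 4 ^ k * r ≤ r0 → ∀ w ∈ closedBall w0 ρ, ∀ n0 : ℕ,
    ∃ n, n0 ≤ n ∧ ∃ (f : X → ℝ) (τ : G → ℝ), (∀ u, 0 ≤ τ u) ∧ ∑ u ∈ K.lev n, τ u ^ 2 ≤ C / k ∧
      (∀ u ∈ K.lev n, K.U u ⊆ ι '' ball w0 ρ → ∀ a ∈ K.U u, ∀ b ∈ K.U u, |f a - f b| ≤ τ u) ∧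
      (∀ v ∈ ball w0 ρ, dist v w ≤ r / 2 → f (ι v) = 0) ∧
      ∀ v ∈ ball w0 ρ, 2 * 4 ^ k * r ≤ dist v w → f (ι v) = 1

/-- a weakly quasisymmetric chart onto the unit disc -/
structure QSC (B : BD G X) where
  φ : X → ℂ
  ι : ℂ → X
  ι_cont : ContinuousOn ι (closedBall 0 1)
  linv : ∀ z ∈ closedBall (0 : ℂ) 1, φ (ι z) = z
  isOpen : IsOpen (ι '' ball 0 1)
  φ_cont : ContinuousOn φ (ι '' closedBall 0 1)
  qs1 : ∀ k : ℝ, ∃ L : ℝ, ∀ x ∈ ball (0 : ℂ) 1, ∀ a ∈ ball (0 : ℂ) 1, ∀ b ∈ ball (0 : ℂ) 1, ∀ R : ℝ,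
    ¬ B.Near R (ι x) (ι b) → B.Near (R - k) (ι x) (ι a) → ‖a - x‖ ≤ L * ‖b - x‖

namespace QSC
variable {B : BD G X} (Q : QSC B)

/-- the group element `g` read in the chart -/
def ψ (g : G) (z : ℂ) : ℂ := Q.φ (g • Q.ι z)
/-- the domain of `ψ g` -/
def W (g : G) : Set ℂ := {z | z ∈ ball (0 : ℂ) 1 ∧ g • Q.ι z ∈ Q.ι '' ball 0 1}

end QSC
end

/-- distortion functions -/
def Gauge (η : ℝ → ℝ) : Prop := (∀ t, 0 ≤ η t) ∧ ∀ ε : ℝ, 0 < ε → ∃ t, 0 < t ∧ η t ≤ ε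

/-- locally quasisymmetric homeomorphisms between open plane sets -/
structure LQS (η : ℝ → ℝ) (ψ χ : ℂ → ℂ) (W W' : Set ℂ) (r : ℝ) : Prop where
  W_open : IsOpen W
  W'_open : IsOpen W'
  r_pos : 0 < r
  maps : MapsTo ψ W W'
  maps' : MapsTo χ W' W
  linv : ∀ z ∈ W, χ (ψ z) = z
  rinv : ∀ w ∈ W', ψ (χ w) = w
  cont : ContinuousOn ψ W
  cont' : ContinuousOn χ W'
  qs : ∀ t : ℝ, 0 < t → ∀ z ∈ W, ∀ a ∈ W, ∀ b ∈ W, ‖a - z‖ ≤ r → ‖b - z‖ ≤ r →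
    ‖a - z‖ ≤ t * ‖b - z‖ → ‖ψ a - ψ z‖ ≤ η t * ‖ψ b - ψ z‖

/-- complex linear part -/
def pa (T : ℂ →L[ℝ] ℂ) : ℂ := (T 1 - Complex.I * T Complex.I) / 2
/-- complex antilinear part -/
def pb (T : ℂ →L[ℝ] ℂ) : ℂ := (T 1 + Complex.I * T Complex.I) / 2
/-- conjugation by a linear automorphism -/
def cj (A : ℂ ≃L[ℝ] ℂ) (T : ℂ →L[ℝ] ℂ) : ℂ →L[ℝ] ℂ :=
  (A : ℂ →L[ℝ] ℂ).comp (T.comp (A.symm : ℂ →L[ℝ] ℂ))
/-- blow-up map -/
def up (A : ℂ ≃L[ℝ] ℂ) (z0 : ℂ) (s : ℝ) (z : ℂ) : ℂ := s⁻¹ • A (z - z0)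
/-- inverse of the blow-up map -/
def dn (A : ℂ ≃L[ℝ] ℂ) (z0 : ℂ) (s : ℝ) (w : ℂ) : ℂ := z0 + s • A.symm w

/-- homogeneous coordinates -/
def vec (x : OnePoint ℂ) : Fin 2 → ℂ := OnePoint.rec ![1, 0] (fun z => ![z, 1]) x

/-- Moebius or anti-Moebius self-maps of the sphere -/
def IsMob (θ : OnePoint ℂ → OnePoint ℂ) : Prop :=
  ∃ M : Matrix (Fin 2) (Fin 2) ℂ, M.det ≠ 0 ∧
    ((∀ x, ∃ c : ℂ, c ≠ 0 ∧ vec (θ x) = c • M.mulVec (vec x)) ∨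
      ∀ x, ∃ c : ℂ, c ≠ 0 ∧ vec (θ x) = c • M.mulVec (star (vec x)))

end

end Vale.Agent.P198
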